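import Vale.Agent.P235.Comp.Defs
import Vale.Agent.P235.H749.Helly

/-! P235: treewidth at most `k` is closed under gluing along a clique (copied from `P235Z/Sum3`
and `ST/H742/TwGlue`, with a small import closure). -/

namespace Vale.Agent.P235A

open SimpleGraph Vale.Agent.P235

section tree

variable {ι κ : Type} {T : SimpleGraph ι} {S : SimpleGraph κ} {i0 : ι} {j0 : κ}

/-- two disjoint trees joined by an edge -/
theorem tree_join [Finite ι] [Finite κ] (hT : T.IsTree) (hS : S.IsTree) :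
    ((T ⊕g S) ⊔ edge (Sum.inl i0) (Sum.inr j0)).IsTree := by
  classical
  have := Fintype.ofFinite ι
  have := Fintype.ofFinite κ
  rw [isTree_iff_connected_and_card] at hT hS ⊢
  refine ⟨hT.1.sum_sup_edge hS.1, ?_⟩
  have h1 : Nat.card ((T ⊕g S) ⊔ edge (Sum.inl i0) (Sum.inr j0)).edgeSet =
      Nat.card (T ⊕g S).edgeSet + 1 := by
    have h := card_edgeFinset_sup_edge (G := T ⊕g S) (s := Sum.inl i0) (t := Sum.inr j0)
      (not_adj_sum_inl_inr _ _) (by simp)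
    rw [edgeFinset_card, edgeFinset_card] at h
    rw [Nat.card_eq_fintype_card, Nat.card_eq_fintype_card]
    convert h using 2
  have h2 : Nat.card (T ⊕g S).edgeSet = Nat.card T.edgeSet + Nat.card S.edgeSet := by
    rw [Nat.card_congr edgeSetSumEquiv, Nat.card_sum]
  rw [h1, h2, Nat.card_sum]
  omega

/-- connected sets of the joined tree -/
theorem join_induce {P : Set ι} {Q : Set κ} (hP : (T.induce P).Preconnected)
    (hQ : (S.induce Q).Preconnected)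
    (h : ∀ i ∈ P, ∀ j ∈ Q, i0 ∈ P ∧ j0 ∈ Q) :
    (((T ⊕g S) ⊔ edge (Sum.inl i0) (Sum.inr j0)).induce
      {z | Sum.elim (fun i => i ∈ P) (fun j => j ∈ Q) z}).Preconnected := by
  set R := (T ⊕g S) ⊔ edge (Sum.inl i0) (Sum.inr j0) with hR
  let φ : T.induce P →g R.induce {z | Sum.elim (fun i => i ∈ P) (fun j => j ∈ Q) z} :=
    { toFun := fun x => ⟨Sum.inl x.1, x.2⟩
      map_rel' := fun {x y} hxy => by
        show R.Adj (Sum.inl x.1) (Sum.inl y.1)
        rw [hR]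
        exact Or.inl (sum_adj_inl.2 hxy) }
  let ψ : S.induce Q →g R.induce {z | Sum.elim (fun i => i ∈ P) (fun j => j ∈ Q) z} :=
    { toFun := fun x => ⟨Sum.inr x.1, x.2⟩
      map_rel' := fun {x y} hxy => by
        show R.Adj (Sum.inr x.1) (Sum.inr y.1)
        rw [hR]
        exact Or.inl (sum_adj_inr.2 hxy) }
  have key : ∀ (i : ι) (hi : i ∈ P) (j : κ) (hj : j ∈ Q),
      (R.induce {z | Sum.elim (fun i => i ∈ P) (fun j => j ∈ Q) z}).Reachable
        ⟨Sum.inl i, hi⟩ ⟨Sum.inr j, hj⟩ := by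
    intro i hi j hj
    obtain ⟨h1, h2⟩ := h i hi j hj
    have e1 := (hP ⟨i, hi⟩ ⟨i0, h1⟩).map φ
    have e2 := (hQ ⟨j0, h2⟩ ⟨j, hj⟩).map ψ
    have e3 : (R.induce {z | Sum.elim (fun i => i ∈ P) (fun j => j ∈ Q) z}).Adj
        ⟨Sum.inl i0, h1⟩ ⟨Sum.inr j0, h2⟩ := by
      show R.Adj (Sum.inl i0) (Sum.inr j0)
      rw [hR]
      exact Or.inr (by simp [edge_adj])
    exact e1.trans (e3.reachable.trans e2)
  rintro ⟨x | x, hx⟩ ⟨y | y, hy⟩
  · exact (hP ⟨x, hx⟩ ⟨y, hy⟩).map φ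
  · exact key x hx y hy
  · exact (key y hy x hx).symm
  · exact (hQ ⟨x, hx⟩ ⟨y, hy⟩).map ψ

end tree

variable {V : Type} {H : SimpleGraph V}

/-- a clique -/
def Clq (H : SimpleGraph V) (C : Set V) : Prop := ∀ u ∈ C, ∀ v ∈ C, u ≠ v → H.Adj u v

/-- no edge from `X ∖ Y` to `Y ∖ X` -/
def NoE (H : SimpleGraph V) (X Y : Set V) : Prop :=
  ∀ u ∈ X, u ∉ Y → ∀ v ∈ Y, v ∉ X → ¬ H.Adj u v

theorem tw_small [Finite V] {A : Set V} {k : ℕ} (h : A.ncard ≤ k + 1) :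
    TreewidthLE (H.induce A) k := by
  classical
  have : Fintype A := Fintype.ofFinite A
  refine ⟨Unit, inferInstance, ⊥, fun _ => Finset.univ, ?_, fun v => ⟨(), Finset.mem_univ v⟩,
    fun u v _ => ⟨(), Finset.mem_univ u, Finset.mem_univ v⟩, fun v => ?_, fun _ => ?_⟩
  · refine ⟨⟨fun x y => ?_⟩, isAcyclic_bot⟩
    rw [Subsingleton.elim x y]
  · intro x y
    rw [Subsingleton.elim x y]
  · rwa [Finset.card_univ, ← Nat.card_eq_fintype_card, Nat.card_coe_set_eq]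

/-- treewidth at most `k` is closed under gluing along a clique -/
theorem tw_union [Finite V] {A B : Set V} {k : ℕ} (hA : TreewidthLE (H.induce A) k)
    (hB : TreewidthLE (H.induce B) k) (hq : Clq H (A ∩ B)) (hn : NoE H A B) :
    TreewidthLE (H.induce (A ∪ B)) k := by
  classical
  have : Fintype V := Fintype.ofFinite V
  obtain ⟨ι, hι, T, X, hT, hXv, hXe, hXc, hXk⟩ := hA
  obtain ⟨κ, hκ, S, Y, hS, hYv, hYe, hYc, hYk⟩ := hB
  obtain ⟨i0, hi0⟩ := H749.helly hT (fun v : A => {t | v ∈ X t}) {v | v.1 ∈ B} hXc hXv (by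
    intro u hu v hv huv
    exact hXe u v (hq u ⟨u.2, hu⟩ v ⟨v.2, hv⟩ fun h => huv (Subtype.ext h)))
  obtain ⟨j0, hj0⟩ := H749.helly hS (fun v : B => {t | v ∈ Y t}) {v | v.1 ∈ A} hYc hYv (by
    intro u hu v hv huv
    exact hYe u v (hq u ⟨hu, u.2⟩ v ⟨hv, v.2⟩ fun h => huv (Subtype.ext h)))
  let X' : ι → Finset ↥(A ∪ B) := fun i =>
    Finset.univ.filter fun z => ∃ h : z.1 ∈ A, (⟨z.1, h⟩ : A) ∈ X i
  let Y' : κ → Finset ↥(A ∪ B) := fun j =>
    Finset.univ.filter fun z => ∃ h : z.1 ∈ B, (⟨z.1, h⟩ : B) ∈ Y j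
  have mX : ∀ i z, z ∈ X' i ↔ ∃ h : z.1 ∈ A, (⟨z.1, h⟩ : A) ∈ X i := by
    intro i z
    simp only [X', Finset.mem_filter, Finset.mem_univ, true_and]
  have mY : ∀ j z, z ∈ Y' j ↔ ∃ h : z.1 ∈ B, (⟨z.1, h⟩ : B) ∈ Y j := by
    intro j z
    simp only [Y', Finset.mem_filter, Finset.mem_univ, true_and]
  refine ⟨ι ⊕ κ, inferInstance, (T ⊕g S) ⊔ edge (Sum.inl i0) (Sum.inr j0), Sum.elim X' Y',
    tree_join hT hS, ?_, ?_, ?_, ?_⟩
  · rintro ⟨x, hx | hx⟩
    · obtain ⟨i, hi⟩ := hXv ⟨x, hx⟩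
      exact ⟨Sum.inl i, (mX i _).2 ⟨hx, hi⟩⟩
    · obtain ⟨j, hj⟩ := hYv ⟨x, hx⟩
      exact ⟨Sum.inr j, (mY j _).2 ⟨hx, hj⟩⟩
  · rintro ⟨x, hx⟩ ⟨y, hy⟩ hxy
    have hxy' : H.Adj x y := hxy
    have : (x ∈ A ∧ y ∈ A) ∨ (x ∈ B ∧ y ∈ B) := by
      by_cases hxA : x ∈ A
      · by_cases hyA : y ∈ A
        · exact Or.inl ⟨hxA, hyA⟩
        · have hyB := hy.resolve_left hyA
          by_cases hxB : x ∈ B
          · exact Or.inr ⟨hxB, hyB⟩
          · exact absurd hxy' (hn x hxA hxB y hyB hyA)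
      · have hxB := hx.resolve_left hxA
        by_cases hyB : y ∈ B
        · exact Or.inr ⟨hxB, hyB⟩
        · have hyA := hy.resolve_right hyB
          exact absurd hxy'.symm (hn y hyA hyB x hxB hxA)
    rcases this with ⟨h1, h2⟩ | ⟨h1, h2⟩
    · obtain ⟨i, a, b⟩ := hXe ⟨x, h1⟩ ⟨y, h2⟩ hxy'
      exact ⟨Sum.inl i, (mX i _).2 ⟨h1, a⟩, (mX i _).2 ⟨h2, b⟩⟩
    · obtain ⟨j, a, b⟩ := hYe ⟨x, h1⟩ ⟨y, h2⟩ hxy'
      exact ⟨Sum.inr j, (mY j _).2 ⟨h1, a⟩, (mY j _).2 ⟨h2, b⟩⟩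
  · intro z
    have c1 : (T.induce {i | z ∈ X' i}).Preconnected := by
      by_cases h : z.1 ∈ A
      · have e : {i | z ∈ X' i} = {i | (⟨z.1, h⟩ : A) ∈ X i} := by
          ext i
          rw [Set.mem_setOf_eq, mX]
          exact ⟨fun ⟨_, a⟩ => a, fun a => ⟨h, a⟩⟩
        rw [e]
        exact hXc _
      · rintro ⟨i, hi⟩
        obtain ⟨h', -⟩ := (mX i z).1 hi
        exact absurd h' h
    have c2 : (S.induce {j | z ∈ Y' j}).Preconnected := by
      by_cases h : z.1 ∈ B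
      · have e : {j | z ∈ Y' j} = {j | (⟨z.1, h⟩ : B) ∈ Y j} := by
          ext j
          rw [Set.mem_setOf_eq, mY]
          exact ⟨fun ⟨_, a⟩ => a, fun a => ⟨h, a⟩⟩
        rw [e]
        exact hYc _
      · rintro ⟨j, hj⟩
        obtain ⟨h', -⟩ := (mY j z).1 hj
        exact absurd h' h
    have h4 := join_induce (i0 := i0) (j0 := j0) c1 c2 (by
      intro i hi j hj
      obtain ⟨a, -⟩ := (mX i z).1 hi
      obtain ⟨b, -⟩ := (mY j z).1 hj
      exact ⟨(mX i0 z).2 ⟨a, hi0 ⟨z.1, a⟩ b⟩, (mY j0 z).2 ⟨b, hj0 ⟨z.1, b⟩ a⟩⟩)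
    have e : {t' : ι ⊕ κ | z ∈ Sum.elim X' Y' t'} =
        {w | Sum.elim (fun i => i ∈ {i | z ∈ X' i}) (fun j => j ∈ {j | z ∈ Y' j}) w} := by
      ext (i | j) <;> rfl
    rw [e]
    exact h4
  · rintro (i | j)
    · refine le_trans ?_ (hXk i)
      show (X' i).card ≤ (X i).card
      rw [← Finset.card_image_of_injective (X' i) Subtype.val_injective,
        ← Finset.card_image_of_injective (X i) Subtype.val_injective]
      refine Finset.card_le_card fun x hx => ?_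
      obtain ⟨z, hz, rfl⟩ := Finset.mem_image.1 hx
      obtain ⟨a, b⟩ := (mX i z).1 hz
      exact Finset.mem_image.2 ⟨_, b, rfl⟩
    · refine le_trans ?_ (hYk j)
      show (Y' j).card ≤ (Y j).card
      rw [← Finset.card_image_of_injective (Y' j) Subtype.val_injective,
        ← Finset.card_image_of_injective (Y j) Subtype.val_injective]
      refine Finset.card_le_card fun x hx => ?_
      obtain ⟨z, hz, rfl⟩ := Finset.mem_image.1 hx
      obtain ⟨a, b⟩ := (mY j z).1 hz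
      exact Finset.mem_image.2 ⟨_, b, rfl⟩

end Vale.Agent.P235A
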