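import Vale.Agent.P235L.Main
import Vale.Agent.P235.H206.Rounds
import Vale.Agent.P235.H392.Complete
import Vale.Agent.P235A.Tw

/-! P235: almost embeddable graphs with attachments along cliques. -/

namespace Vale.Agent.P235A

open SimpleGraph Vale.Agent.P235 Vale.Agent.P235.H134 Vale.Agent.P235.K5 Vale.Agent.P235U
open Vale.Agent.P235L

variable {V : Type} {G H : SimpleGraph V} {m n : ℕ} {B : ℕ → Set V}

theorem almost_mono {a g p w : ℕ} (hGH : G ≤ H) (h : AlmostEmb a g p w H) :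
    AlmostEmb a g p w G := by
  obtain ⟨A, G₀, n, x, B, h1, h2, h3⟩ := h
  exact ⟨A, G₀, n, x, B, h1, ⟨fun u v huv => h2.edge u v (hGH huv), h2.inj, h2.root, h2.card,
    h2.conv, h2.disj, h2.meet⟩, h3⟩

/-- off the first piece the treewidth is at most `k` -/
theorem tw_off [Finite V] {k : ℕ} (h : Glued m H n B)
    (hk : ∀ t, 0 < t → t < n → TreewidthLE (H.induce (B t)) k) :
    ∀ t, t ≤ n → TreewidthLE (H.induce (Bef B t \ B 0)) k := by
  intro t
  induction t with
  | zero =>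
    intro _
    refine tw_small ?_
    have : Bef B 0 \ B 0 = ∅ := Set.eq_empty_of_forall_notMem fun v hv => by
      obtain ⟨s, hs, -⟩ := hv.1
      omega
    rw [this, Set.ncard_empty]
    omega
  | succ t ih =>
    intro ht
    have e : Bef B (t + 1) \ B 0 = (Bef B t \ B 0) ∪ (B t \ B 0) := by
      ext v
      constructor
      · rintro ⟨⟨s, hs, hv⟩, h0⟩
        rcases Nat.lt_succ_iff_lt_or_eq.1 hs with h1 | rfl
        · exact Or.inl ⟨⟨s, h1, hv⟩, h0⟩
        · exact Or.inr ⟨hv, h0⟩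
      · rintro (⟨⟨s, hs, hv⟩, h0⟩ | ⟨hv, h0⟩)
        · exact ⟨⟨s, by omega, hv⟩, h0⟩
        · exact ⟨⟨t, by omega, hv⟩, h0⟩
    rw [e]
    refine tw_union (ih (by omega)) ?_ ?_ ?_
    · rcases Nat.eq_zero_or_pos t with rfl | h0
      · refine tw_small ?_
        rw [Set.diff_self, Set.ncard_empty]
        omega
      · exact TreewidthLE.comap (fun z : ↥(B t \ B 0) => (⟨z.1, z.2.1⟩ : B t))
          (fun a b e => Subtype.ext (congrArg (fun z : B t => z.1) e)) (fun a b h => h)
          (hk t h0 (by omega))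
    · intro u hu v hv huv
      exact h.clique t (by omega) u ⟨hu.2.1, hu.1.1⟩ v ⟨hv.2.1, hv.1.1⟩ huv
    · intro u hu hu' v hv hv' huv
      exact h.sep t (by omega) v u hv.1 (fun a => hv' ⟨a, hv.2⟩) hu.1 (fun a => hu' ⟨a, hu.2⟩)
        huv.symm

theorem exists_top (T : BTree n B) : ∀ t, 0 < t → t < n →
    ∃ s, 0 < s ∧ s < n ∧ T.par s = 0 ∧ T.Desc s t := by
  intro t
  induction t using Nat.strong_induction_on with
  | _ t ih =>
    intro h0 ht
    rcases Nat.eq_zero_or_pos (T.par t) with e | e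
    · exact ⟨t, h0, ht, e, BTree.Desc.refl t⟩
    · have h1 := T.par_lt t h0 ht
      obtain ⟨s, a, b, c, d⟩ := ih _ h1 e (h1.trans ht)
      exact ⟨s, a, b, c, d.par⟩

/-- the attachments of a component of `G - B 0` lie in one adhesion set -/
theorem attach_sub (hGH : G ≤ H) (h : Glued m H n B) {u x : V} (hx : x ∈ attach G (B 0) u) :
    ∃ s, s < n ∧ attach G (B 0) u ⊆ Adh B s := by
  obtain ⟨T⟩ := h.exists_tree
  obtain ⟨-, v0, hv0, -⟩ := hx
  have hu : u ∉ B 0 := ReachOff.left hv0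
  have h0 : 0 < h.it u := by
    rcases Nat.eq_zero_or_pos (h.it u) with e | e
    · exact absurd (e ▸ h.it_mem u) hu
    · exact e
  obtain ⟨s, s0, sn, sp, sd⟩ := exists_top T _ h0 (h.it_lt u)
  have hA : Adh B s ⊆ B 0 := sp ▸ T.adh s s0 sn
  have key : ∀ (a b : V) (r : G.Walk a b), (∀ z ∈ r.support, z ∉ B 0) → a ∈ h.Sub T s →
      b ∈ h.Sub T s := by
    intro a b r
    induction r with
    | nil => exact fun _ h => h
    | @cons a c b hac r ih =>
      intro hr ha
      refine ih (fun z hz => hr z (by simp [hz])) ?_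
      by_contra hc
      exact hr c (by simp) (hA (h.leave ha hc (hGH hac)))
  refine ⟨s, sn, ?_⟩
  rintro y ⟨hy, v, ⟨q, hq⟩, hvy⟩
  refine h.leave (key u v q hq sd) (fun a => ?_) (hGH hvy)
  have h1 : s ≤ h.it y := BTree.Desc.le a
  have h2 := h.it_le (lt_trans s0 sn) hy
  omega

theorem torso_le (hGH : G ≤ H) (h : Glued m H n B) : torso G (B 0) ≤ H.induce (B 0) := by
  rintro x y ⟨hne, a | ⟨u, hx, hy⟩⟩
  · exact hGH a
  · obtain ⟨s, hs, h1⟩ := attach_sub hGH h hx
    exact h.clique s hs x.1 (h1 hx) y.1 (h1 hy) fun e => hne (Subtype.ext e)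

/-- almost embeddable torso, components with bounded `c₁` -/
theorem tors (a g p w : ℕ) (D : ℝ) : ∃ C : ℝ, ∀ (V : Type) [Finite V] (G : SimpleGraph V)
    (X : Set V), G.Connected → AlmostEmb a g p w (torso G X) →
    (∀ u ∉ X, DistortionLE (G.induce (compSet G X u)) D) → Bd G C := by
  obtain ⟨A, hA⟩ := almost a g p w
  obtain ⟨K, hK⟩ := composition_free (fun C => complete_unbounded C) (max A D)
  refine ⟨max K D, fun V _ G X hc h1 h2 => bd_of hc ?_⟩
  rcases X.eq_empty_or_nonempty with rfl | hX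
  · exact (distortion_of_empty hc h2).mono (le_max_right _ _)
  · exact (hK V G hc X hX ((hA _ _ (torso_connected hc hX) h1).mono (le_max_left _ _))
      fun u hu => (h2 u hu).mono (le_max_right _ _)).mono (le_max_left _ _)

theorem final :
    (∃ C : ℝ, ∀ (V : Type) [Finite V] (G : SimpleGraph V), G.Connected → Planar G → Bd G C) ∧
    (∀ k : ℕ, ∃ C : ℝ, ∀ (V : Type) [Finite V] (G : SimpleGraph V), G.Connected →
      TreewidthLE G k → Bd G C) ∧
    (∀ a g p w k : ℕ, ∃ C : ℝ, ∀ (V : Type) [Finite V] (G H : SimpleGraph V) (m n : ℕ)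
      (B : ℕ → Set V), G.Connected → G ≤ H → Glued m H n B →
      AlmostEmb a g p w (H.induce (B 0)) →
      (∀ t, 0 < t → t < n → TreewidthLE (H.induce (B t)) k) → Bd G C) ∧
    ∀ (a g p w : ℕ) (D : ℝ), ∃ C : ℝ, ∀ (V : Type) [Finite V] (G : SimpleGraph V) (X : Set V),
      G.Connected → AlmostEmb a g p w (torso G X) →
      (∀ u ∉ X, DistortionLE (G.induce (compSet G X u)) D) → Bd G C := by
  refine ⟨P235L.final.1, P235L.final.2.1, fun a g p w k => ?_, tors⟩
  obtain ⟨D, hD⟩ := H957.tw_bounded k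
  obtain ⟨C, hC⟩ := tors a g p w D
  refine ⟨C, fun V _ G H m n B hc hGH h h0 hk => hC V G (B 0) hc
    (almost_mono (torso_le hGH h) h0) fun u hu => hD _ _ (comp_connected hu) ?_⟩
  have hb : ∀ v, v ∈ Bef B n := fun v => h.cover v
  exact TreewidthLE.comap
    (fun z : compSet G (B 0) u => (⟨z.1, hb z.1, ReachOff.right z.2⟩ : ↥(Bef B n \ B 0)))
    (fun a b e => Subtype.ext (congrArg (fun z : ↥(Bef B n \ B 0) => z.1) e))
    (fun a b h => hGH h) (tw_off h hk n le_rfl)

end Vale.Agent.P235A
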